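import Vale.Agent.P275RB.Cut

/-!
# P275, block RB: no residues, and primitives are bounded
-/

open scoped Topology ContDiff ComplexConjugate ComplexOrder
open Set Filter Metric MeasureTheory Bornology
open Vale.Agent.P281Z.Hm Vale.Agent.P275DL

noncomputable section

namespace Vale.Agent.P275RB

variable {S : Type} {X : Cov S}

theorem sum_le {e : ℕ} (he : ∀ t, (X.fib t).card ≤ e) {f : S → ℝ} {t c : ℂ} {B x : ℝ}
    (h : ∀ p ∈ X.fib t, f p ≤ B * ‖c‖ ^ x) : ∑ p ∈ X.fib t, f p ≤ e * |B| * ‖c‖ ^ x := by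
  have h1 := Finset.sum_le_card_nsmul (X.fib t) f (|B| * ‖c‖ ^ x) fun p hp =>
    (h p hp).trans (mul_le_mul_of_nonneg_right (le_abs_self B) (by positivity))
  rw [nsmul_eq_mul] at h1
  rw [mul_assoc]
  exact h1.trans (mul_le_mul_of_nonneg_right (Nat.cast_le.2 (he t)) (by positivity))

/-- **RES.** -/
theorem res : RES := by
  rintro S X h u hh ⟨A, hA⟩ hu ⟨κ, hκ, B, h1, h2⟩
  obtain ⟨e, he⟩ := X.bd
  have hs := hh.mul hu.sm
  have hG := hh.db.mul hu.sm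
  have bd : ∀ (t c : ℂ) (x : ℝ), (∀ p ∈ X.fib t, ‖u p‖ ≤ B * (‖c‖ ^ x) ^ 1) →
      ‖∑ p ∈ X.fib t, h p * u p‖ ≤ e * |(|A| * |B|)| * ‖c‖ ^ x := fun t c x H =>
    (norm_sum_le _ _).trans (sum_le he fun p hp => by
      have := H p hp
      rw [pow_one] at this
      rw [norm_mul, mul_assoc]
      exact mul_le_mul ((hA p).trans (le_abs_self A)) (this.trans (mul_le_mul_of_nonneg_right
        (le_abs_self B) (by positivity))) (norm_nonneg _) (abs_nonneg _))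
  obtain ⟨χ, C, O⟩ := exists_cut (Z := X.Z) (g := fun t => ∑ p ∈ X.fib t, h p * u p) hκ
    (fun s hs => (h1 s hs).mono fun t ht => bd t _ _ ht) (h2.mono fun t ht => bd t _ _ ht)
  have T := C.tend O fun t ht => hs.tr ht
  have e1 : ∀ n, ∫ t, cx (χ n) t * wb 1 (fun t => ∑ p ∈ X.fib t, h p * u p) t =
      ∫ t, cx (χ n) t * ∑ p ∈ X.fib t, X.db h p * u p := fun n =>
    integral_congr_ae ((ae_notMem X.Z).mono fun t ht => by
      simp only [hs.wb_tr ht, hh.db_mul hu.sm, hu.db, mul_zero, add_zero])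
  simp only [e1] at T
  refine ⟨fun ⟨K, k1, k2, k3⟩ => ?_, fun H p => ?_⟩
  · refine tendsto_nhds_unique tendsto_const_nhds (T.congr' ?_)
    filter_upwards [C.on k1 k2] with n hn
    refine integral_congr_ae (Eventually.of_forall fun t => ?_)
    by_cases ht : t ∈ K
    · simp only [cx, hn t ht, Complex.ofReal_one, one_mul]
    · simp only [Cov.tr_off k3 ht, mul_zero]
  · have c1 : ∀ n, _ := fun n => (O n).mul (cx_cd (C.sm n)) fun t ht => hG.tr ht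
    have i1 : ∀ n, Integrable fun t => cx (χ n) t * ∑ p ∈ X.fib t, X.db h p * u p := fun n =>
      (c1 n).1.continuous.integrable_of_hasCompactSupport (c1 n).2
    have G0 : ∀ t, 0 ≤ (∑ p ∈ X.fib t, X.db h p * u p).re := fun t =>
      (Complex.nonneg_iff.1 (Finset.sum_nonneg fun q _ => H q)).1
    obtain ⟨m, hm⟩ := (C.on (isCompact_singleton (x := X.ψ p))
      fun t ht => ht ▸ X.nz p).exists
    obtain ⟨K, k1, k2, k3⟩ := O m
    have n0 : ∀ t, 0 ≤ (cx (χ m) t * ∑ p ∈ X.fib t, X.db h p * u p).re := fun t => by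
      rw [cx, Complex.re_ofReal_mul]; exact mul_nonneg (C.mem m t).1 (G0 t)
    have le0 : ∫ t, (cx (χ m) t * ∑ p ∈ X.fib t, X.db h p * u p).re ≤ 0 := by
      refine ge_of_tendsto ((Complex.continuous_re.tendsto 0).comp T) ?_
      filter_upwards [C.on k1 k2] with n hn
      refine le_of_le_of_eq (integral_mono (i1 m).re (i1 n).re fun t => ?_) (integral_re (i1 n))
      simp only [cx, RCLike.re_to_complex, Complex.re_ofReal_mul]
      refine mul_le_mul_of_nonneg_right ?_ (G0 t)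
      by_cases ht : t ∈ K
      · rw [hn t ht]; exact (C.mem m t).2
      · rw [Complex.ofReal_eq_zero.1 (k3 t ht)]; exact (C.mem n t).1
    have z := (Continuous.ae_eq_iff_eq volume (Complex.continuous_re.comp (c1 m).1.continuous)
      continuous_zero).1 ((integral_eq_zero_iff_of_nonneg n0 (i1 m).re).1
        (le_antisymm le0 (integral_nonneg n0)))
    have z1 : (∑ q ∈ X.fib (X.ψ p), X.db h q * u q).re = 0 := by
      have := congrFun z (X.ψ p)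
      simpa only [Function.comp, cx, hm _ rfl, Complex.ofReal_one, one_mul, Pi.zero_apply]
        using this
    have z2 : ∑ q ∈ X.fib (X.ψ p), X.db h q * u q = 0 :=
      Complex.ext z1 (Complex.nonneg_iff.1 (Finset.sum_nonneg fun q _ => H q)).2.symm
    exact (Finset.sum_eq_zero_iff_of_nonneg fun q _ => H q).1 z2 p (X.mem_self p)

/-- the size of `h` over a point -/
def sz (X : Cov S) (h : S → ℂ) (t : ℂ) : ℝ := Real.log (1 + ∑ p ∈ X.fib t, ‖h p‖ ^ 2)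

variable {h : S → ℂ}

theorem sz_ev (h : S → ℂ) {t : ℂ} (ht : t ∉ X.Z) :
    sz X h =ᶠ[𝓝 t] fun s => Real.log (1 + ∑ p ∈ X.fib t, ‖h (X.σ p s)‖ ^ 2) :=
  (X.sum_ev (M := ℝ) ht).mono fun s hs => by rw [sz, hs fun p => ‖h p‖ ^ 2]

theorem sz_cont (hh : X.Sm h) {t : ℂ} (ht : t ∉ X.Z) : ContinuousAt (sz X h) t := by
  have c : ContinuousAt (fun s => ∑ p ∈ X.fib t, ‖h (X.σ p s)‖ ^ 2) t :=
    tendsto_finsetSum _ fun p hp => (Cov.ψ_of hp ▸ (hh p).continuousAt.norm.pow 2 :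
      ContinuousAt (fun s => ‖h (X.σ p s)‖ ^ 2) t)
  have p0 : 0 < 1 + ∑ p ∈ X.fib t, ‖h (X.σ p t)‖ ^ 2 := by positivity
  exact ContinuousAt.congr (ContinuousAt.log (continuousAt_const.add c) p0.ne') (sz_ev h ht).symm

theorem sz_der (hh : X.Sm h) {c v : ℂ} (hv : ‖v‖ = 1) {ρ : ℝ} (ht : c + ρ * v ∉ X.Z) :
    ∃ d, HasDerivAt (fun x : ℝ => sz X h (c + x * v)) d ρ ∧
      |d| ≤ ∑ p ∈ X.fib (c + ρ * v), (‖X.dz h p‖ + ‖X.db h p‖) := by
  have l : HasDerivAt (fun x : ℝ => c + x * v) v ρ := by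
    simpa using ((Complex.ofRealCLM.hasDerivAt (x := ρ)).mul_const v).const_add c
  have d1 : ∀ p ∈ X.fib (c + ρ * v), HasDerivAt (fun x : ℝ => h (X.σ p (c + x * v)))
      (v * X.dz h p + conj v * X.db h p) ρ := fun p hp => by
    have e := Cov.ψ_of hp
    have f := (hh.df p).hasFDerivAt
    have a := wd_smulv v (fun s => h (X.σ p s)) (X.ψ p) 1
    have b := wb_smulv v (fun s => h (X.σ p s)) (X.ψ p) 1
    simp only [smul_eq_mul, mul_one] at a b
    refine (HasFDerivAt.comp_hasDerivAt_of_eq ρ f l e).congr_deriv ?_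
    rw [fderiv_eq_wd, a, b, Cov.dz, Cov.db]
  have p0 : 0 < 1 + ∑ p ∈ X.fib (c + ρ * v), ‖h (X.σ p (c + ρ * v))‖ ^ 2 := by positivity
  refine ⟨_, (((HasDerivAt.fun_sum fun p hp => (d1 p hp).norm_sq).const_add 1).log
    p0.ne').congr_of_eventuallyEq (l.continuousAt.eventually (sz_ev h ht)), ?_⟩
  rw [abs_div, abs_of_pos p0, div_le_iff₀ p0, Finset.sum_mul]
  refine (Finset.abs_sum_le_sum_abs _ _).trans (Finset.sum_le_sum fun p hp => ?_)
  have a1 := abs_real_inner_le_norm (h (X.σ p (c + ρ * v))) (v * X.dz h p + conj v * X.db h p)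
  have a2 : ‖v * X.dz h p + conj v * X.db h p‖ ≤ ‖X.dz h p‖ + ‖X.db h p‖ :=
    (norm_add_le _ _).trans (by rw [norm_mul, norm_mul, Complex.norm_conj, hv, one_mul, one_mul])
  have a3 := Finset.single_le_sum (f := fun q => ‖h (X.σ q (c + ρ * v))‖ ^ 2)
    (fun _ _ => sq_nonneg _) hp
  have a4 : 2 * ‖h (X.σ p (c + ρ * v))‖ ≤
      1 + ∑ p ∈ X.fib (c + ρ * v), ‖h (X.σ p (c + ρ * v))‖ ^ 2 := by
    nlinarith [sq_nonneg (‖h (X.σ p (c + ρ * v))‖ - 1)]
  rw [abs_mul, abs_two, mul_comm (_ + _)]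
  calc _ ≤ 2 * (‖h (X.σ p (c + ρ * v))‖ * (‖X.dz h p‖ + ‖X.db h p‖)) :=
        mul_le_mul_of_nonneg_left (a1.trans (mul_le_mul_of_nonneg_left a2 (norm_nonneg _)))
          zero_le_two
    _ = 2 * ‖h (X.σ p (c + ρ * v))‖ * (‖X.dz h p‖ + ‖X.db h p‖) := by ring
    _ ≤ _ := mul_le_mul_of_nonneg_right a4 (by positivity)

theorem ray {f : ℝ → ℝ} {a b C α : ℝ} (ha : 0 < a) (hab : a ≤ b) (hα : α ≠ 0)
    (H : ∀ x ∈ Icc a b, ∃ d, HasDerivAt f d x ∧ |d| ≤ C * x ^ (α - 1)) :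
    |f b - f a| ≤ C / α * b ^ α - C / α * a ^ α := by
  have k : ∀ x ∈ Icc a b, HasDerivAt (fun x : ℝ => C / α * x ^ α) (C * x ^ (α - 1)) x :=
    fun x hx => ((Real.hasDerivAt_rpow_const (Or.inl (ha.trans_le hx.1).ne')).const_mul
      (C / α)).congr_deriv (by field_simp)
  have m : ∀ g : ℝ → ℝ, (∀ x ∈ Icc a b, ∃ d, HasDerivAt g d x ∧ 0 ≤ d) → g a ≤ g b := fun g hg =>
    monotoneOn_of_deriv_nonneg (convex_Icc a b)
      (fun x hx => let ⟨_, h, _⟩ := hg x hx; h.continuousAt.continuousWithinAt)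
      (fun x hx => let ⟨_, h, _⟩ := hg x (interior_subset hx)
        h.differentiableAt.differentiableWithinAt)
      (fun x hx => let ⟨_, h, h0⟩ := hg x (interior_subset hx); h.deriv ▸ h0)
      (left_mem_Icc.2 hab) (right_mem_Icc.2 hab) hab
  have m1 := m (fun x => C / α * x ^ α + f x) fun x hx =>
    let ⟨d, h, h0⟩ := H x hx
    ⟨_, (k x hx).fun_add h, by linarith [(abs_le.1 h0).1]⟩
  have m2 := m (fun x => C / α * x ^ α - f x) fun x hx =>
    let ⟨d, h, h0⟩ := H x hx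
    ⟨_, (k x hx).fun_sub h, by linarith [(abs_le.1 h0).2]⟩
  exact abs_le.2 ⟨by linarith, by linarith⟩

theorem polar {c t : ℂ} (h : t ≠ c) : ∃ v : ℂ, ‖v‖ = 1 ∧ t = c + (‖t - c‖ : ℝ) * v ∧
    ∀ x : ℝ, 0 ≤ x → ‖c + x * v - c‖ = x := by
  have h0 : 0 < ‖t - c‖ := norm_pos_iff.2 (sub_ne_zero.2 h)
  have h1 : ((‖t - c‖ : ℝ) : ℂ) ≠ 0 := Complex.ofReal_ne_zero.2 h0.ne'
  have h2 : ‖(t - c) / (‖t - c‖ : ℝ)‖ = 1 := by
    rw [norm_div, Complex.norm_real, norm_norm, div_self h0.ne']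
  refine ⟨_, h2, by rw [mul_div_cancel₀ _ h1, add_sub_cancel], fun x hx => ?_⟩
  rw [add_sub_cancel_left, norm_mul, h2, mul_one, Complex.norm_real, Real.norm_of_nonneg hx]

theorem sph (hh : X.Sm h) (c : ℂ) {r : ℝ} (H : ∀ t, ‖t - c‖ = r → t ∉ X.Z) :
    ∃ M, ∀ t, ‖t - c‖ = r → sz X h t ≤ M := by
  obtain ⟨M, hM⟩ := (isCompact_sphere c r).exists_bound_of_continuousOn (f := sz X h)
    fun t ht => (sz_cont hh (H t (mem_sphere_iff_norm.1 ht))).continuousWithinAt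
  exact ⟨M, fun t ht => (le_abs_self _).trans (hM t (mem_sphere_iff_norm.2 ht))⟩

theorem bd_pt (hh : X.Sm h) {s : ℂ} {κ C : ℝ} (hκ : 0 < κ) (C0 : 0 ≤ C) (H : ∀ᶠ t in 𝓝[≠] s,
    ∑ p ∈ X.fib t, (‖X.dz h p‖ + ‖X.db h p‖) ≤ C * ‖t - s‖ ^ (κ - 1)) :
    ∃ M, ∀ᶠ t in 𝓝 s, sz X h t ≤ M := by
  obtain ⟨r, r0, hr⟩ := Metric.nhds_basis_closedBall.eventually_iff.1
    (eventually_nhdsWithin_iff.1 (H.and (ev_notMem' X.Z s)))
  have k : ∀ t, 0 < ‖t - s‖ → ‖t - s‖ ≤ r → _ := fun t h1 h2 =>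
    hr (mem_closedBall_iff_norm.2 h2) (sub_ne_zero.1 (norm_pos_iff.1 h1))
  obtain ⟨M, hM⟩ := sph hh s (r := r) fun t ht => (k t (ht ▸ r0) ht.le).2
  refine ⟨max (sz X h s) (M + C / κ * r ^ κ), eventually_of_mem (closedBall_mem_nhds s r0)
    fun t ht => ?_⟩
  rcases eq_or_ne t s with rfl | hts
  · exact le_max_left _ _
  obtain ⟨v, h1, h2, h3⟩ := polar hts
  have h0 : 0 < ‖t - s‖ := norm_pos_iff.2 (sub_ne_zero.2 hts)
  have := ray (f := fun x => sz X h (s + x * v)) (C := C) h0 (mem_closedBall_iff_norm.1 ht) hκ.ne'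
    fun x hx => by
      have x0 := h0.trans_le hx.1
      have q := k (s + x * v) (by rwa [h3 x x0.le]) (by rw [h3 x x0.le]; exact hx.2)
      obtain ⟨d, d1, d2⟩ := sz_der hh h1 q.2
      exact ⟨d, d1, d2.trans (by simpa only [h3 x x0.le] using q.1)⟩
  rw [← h2] at this
  have h4 : 0 ≤ C / κ * ‖t - s‖ ^ κ := by positivity
  exact le_max_of_le_right (by linarith [(abs_le.1 this).1, hM _ (h3 r r0.le)])

theorem bd_inf (hh : X.Sm h) {κ C : ℝ} (hκ : 0 < κ) (C0 : 0 ≤ C) (H : ∀ᶠ t in cobounded ℂ,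
    ∑ p ∈ X.fib t, (‖X.dz h p‖ + ‖X.db h p‖) ≤ C * ‖t‖ ^ (-1 - κ)) :
    ∃ M R, ∀ t, R ≤ ‖t‖ → sz X h t ≤ M := by
  have z : ∀ᶠ t in cobounded ℂ, t ∉ X.Z := X.Z.finite_toSet.isBounded
  obtain ⟨R, -, hR⟩ := (hasBasis_cobounded_norm (E := ℂ)).eventually_iff.1 (H.and z)
  have r0 : 0 < max R 1 := lt_max_of_lt_right one_pos
  have k : ∀ t : ℂ, max R 1 ≤ ‖t - 0‖ → _ := fun t h1 =>
    hR (show t ∈ {x : ℂ | R ≤ ‖x‖} from (le_max_left _ _).trans (by rwa [sub_zero] at h1))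
  obtain ⟨M, hM⟩ := sph hh 0 (r := max R 1) fun t ht => (k t ht.ge).2
  refine ⟨M + C / κ * max R 1 ^ (-κ), max R 1, fun t ht => ?_⟩
  obtain ⟨v, h1, h2, h3⟩ := polar (c := 0) (norm_pos_iff.1 (r0.trans_le ht))
  have := ray (f := fun x => sz X h (0 + x * v)) (C := C) (b := ‖t - 0‖) r0 (by rwa [sub_zero])
    (neg_ne_zero.2 hκ.ne') fun x hx => by
      have x0 := r0.trans_le hx.1
      have q := k (0 + x * v) (by rw [h3 x x0.le]; exact hx.1)
      obtain ⟨d, d1, d2⟩ := sz_der hh h1 q.2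
      have e := h3 x x0.le
      rw [sub_zero] at e
      exact ⟨d, d1, d2.trans (by rw [show -κ - 1 = -1 - κ by ring]; simpa only [e] using q.1)⟩
  rw [← h2, div_neg] at this
  have h4 : 0 ≤ C / κ * ‖t - 0‖ ^ (-κ) := by positivity
  linarith [(abs_le.1 this).2, hM _ (h3 _ r0.le)]

/-- **BND.** -/
theorem bnd : BND := by
  rintro S X h hh ⟨κ, hκ, B, h1, h2⟩ ⟨κ', hκ', B', k1, k2⟩
  obtain ⟨e, he⟩ := X.bd
  have k0 := lt_min hκ hκ'
  have bd : ∀ (t c : ℂ) (x x' y : ℝ), ‖c‖ ^ x ≤ ‖c‖ ^ y → ‖c‖ ^ x' ≤ ‖c‖ ^ y →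
      (∀ p ∈ X.fib t, ‖X.dz h p‖ ≤ B * (‖c‖ ^ x) ^ 1) →
      (∀ p ∈ X.fib t, ‖X.db h p‖ ≤ B' * (‖c‖ ^ x') ^ 1) →
      ∑ p ∈ X.fib t, (‖X.dz h p‖ + ‖X.db h p‖) ≤ e * |(|B| + |B'|)| * ‖c‖ ^ y :=
    fun t c x x' y a a' H H' => sum_le he fun p hp => by
      have b := H p hp
      have b' := H' p hp
      rw [pow_one] at b b'
      rw [add_mul]
      exact add_le_add (b.trans (mul_le_mul (le_abs_self _) a (by positivity) (abs_nonneg _)))
        (b'.trans (mul_le_mul (le_abs_self _) a' (by positivity) (abs_nonneg _)))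
  obtain ⟨M, R, hM⟩ := bd_inf hh k0 (C := e * |(|B| + |B'|)|) (by positivity) (by
    filter_upwards [h2, k2, (tendsto_norm_cobounded_atTop (E := ℂ)).eventually_ge_atTop 1] with t a b c
    exact bd t t _ _ _ (Real.rpow_le_rpow_of_exponent_le c (by linarith [min_le_left κ κ']))
      (Real.rpow_le_rpow_of_exponent_le c (by linarith [min_le_right κ κ'])) a b)
  obtain ⟨M', hM'⟩ : ∃ M', ∀ t ∈ closedBall (0 : ℂ) R, sz X h t ≤ M' := by
    refine (isCompact_closedBall 0 R).induction_on (p := fun A => ∃ M', ∀ t ∈ A, sz X h t ≤ M')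
      ⟨0, by simp⟩ (fun _ _ hs ⟨M, h⟩ => ⟨M, fun t ht => h t (hs ht)⟩)
      (fun _ _ ⟨M1, a⟩ ⟨M2, b⟩ => ⟨max M1 M2, fun t ht => ht.elim
        (fun c => le_max_of_le_left (a t c)) fun c => le_max_of_le_right (b t c)⟩) fun s _ => ?_
    suffices ∃ M, ∀ᶠ t in 𝓝 s, sz X h t ≤ M from
      let ⟨M, hM⟩ := this
      ⟨_, mem_nhdsWithin_of_mem_nhds hM, M, fun _ ht => ht⟩
    by_cases hs : s ∈ X.Z
    · refine bd_pt hh k0 (C := e * |(|B| + |B'|)|) (by positivity) ?_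
      filter_upwards [h1 s hs, k1 s hs, nhdsWithin_le_nhds (closedBall_mem_nhds s one_pos),
        self_mem_nhdsWithin] with t a b c d
      have c0 : 0 < ‖t - s‖ := norm_pos_iff.2 (sub_ne_zero.2 d)
      have c1 := mem_closedBall_iff_norm.1 c
      exact bd t _ _ _ _
        (Real.rpow_le_rpow_of_exponent_ge c0 c1 (by linarith [min_le_left κ κ']))
        (Real.rpow_le_rpow_of_exponent_ge c0 c1 (by linarith [min_le_right κ κ'])) a b
    · exact ⟨_, ((sz_cont hh hs).eventually (gt_mem_nhds (lt_add_one _))).mono fun _ => le_of_lt⟩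
  refine ⟨Real.exp (max M M'), fun p => ?_⟩
  have a1 : sz X h (X.ψ p) ≤ max M M' := (le_total R ‖X.ψ p‖).elim
    (fun c => le_max_of_le_left (hM _ c))
    fun c => le_max_of_le_right (hM' _ (mem_closedBall_zero_iff.2 c))
  have a2 := (Real.log_le_iff_le_exp (by positivity)).1 a1
  have a3 := Finset.single_le_sum (f := fun q => ‖h q‖ ^ 2) (fun _ _ => sq_nonneg _) (X.mem_self p)
  nlinarith [sq_nonneg (‖h p‖ - 1), norm_nonneg (h p)]

end Vale.Agent.P275RB
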