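import Vale.Agent.P275DL.Bas
import Vale.Agent.P275GC.St
import Mathlib.Analysis.SpecialFunctions.Pow.Integral
import Mathlib.Analysis.SpecialFunctions.JapaneseBracket

/-!
# P275, block RB: cut-off functions at finitely many points and at infinity
-/

open scoped Topology ContDiff ComplexConjugate
open Set Filter Metric MeasureTheory Bornology
open Vale.Agent.P281Z.Hm Vale.Agent.P275DL

noncomputable section

namespace Vale.Agent.P275RB

/-- a real function as a complex function -/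
def cx (f : ℂ → ℝ) (w : ℂ) : ℂ := f w

theorem cx_cd {f : ℂ → ℝ} (h : ContDiff ℝ ∞ f) : ContDiff ℝ ∞ (cx f) :=
  Complex.ofRealCLM.contDiff.comp h

theorem wb_cd {f : ℂ → ℂ} (h : ContDiff ℝ ∞ f) : ContDiff ℝ ∞ (wb 1 f) :=
  contDiff_iff_contDiffAt.2 fun _ => cd_wb h.contDiffAt

theorem wb_lc {f : ℂ → ℂ} {t c : ℂ} (h : ∀ᶠ w in 𝓝 t, f w = c) : wb 1 f t = 0 :=
  (wb_congr (g := fun _ => c) h 1).trans (wb_const _ _ _)

/-- cut-off functions whose derivatives times `g` are dominated -/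
structure Cut (Z : Finset ℂ) (g : ℂ → ℂ) (χ : ℕ → ℂ → ℝ) : Prop where
  sm : ∀ n, ContDiff ℝ ∞ (χ n)
  mem : ∀ n t, 0 ≤ χ n t ∧ χ n t ≤ 1
  one : ∀ t ∉ Z, ∀ᶠ q : ℕ × ℂ in atTop ×ˢ 𝓝 t, χ q.1 q.2 = 1
  dom : ∃ F : ℂ → ℝ, Integrable F ∧
    ∀ᶠ n in atTop, ∀ t ∉ Z, ‖wb 1 (cx (χ n)) t‖ * ‖g t‖ ≤ F t

variable {Z : Finset ℂ} {g : ℂ → ℂ} {χ ψ : ℕ → ℂ → ℝ}

theorem cut_one : Cut Z g fun _ _ => 1 :=
  ⟨fun _ => contDiff_const, fun _ _ => ⟨zero_le_one, le_rfl⟩,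
    fun _ _ => Eventually.of_forall fun _ => rfl,
    ⟨fun _ => 0, integrable_zero _ _ _, Eventually.of_forall fun n t _ => by
      rw [wb_lc (c := 1) (Eventually.of_forall fun _ => by simp [cx])]; simp⟩⟩

theorem Cut.mul (h : Cut Z g χ) (k : Cut Z g ψ) : Cut Z g fun n t => χ n t * ψ n t := by
  refine ⟨fun n => (h.sm n).mul (k.sm n), fun n t => ⟨mul_nonneg (h.mem n t).1 (k.mem n t).1,
    mul_le_one₀ (h.mem n t).2 (k.mem n t).1 (k.mem n t).2⟩, fun t ht => ?_, ?_⟩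
  · filter_upwards [h.one t ht, k.one t ht] with q h1 h2
    rw [h1, h2, mul_one]
  · obtain ⟨F, hF, h1⟩ := h.dom
    obtain ⟨G, hG, k1⟩ := k.dom
    refine ⟨fun t => F t + G t, hF.add hG, ?_⟩
    filter_upwards [h1, k1] with n h2 k2 t ht
    have e : cx (fun t => χ n t * ψ n t) = fun w => cx (χ n) w * cx (ψ n) w :=
      funext fun w => by simp [cx]
    have a1 : ‖cx (χ n) t‖ ≤ 1 := by
      rw [cx, Complex.norm_real, Real.norm_of_nonneg (h.mem n t).1]; exact (h.mem n t).2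
    have a2 : ‖cx (ψ n) t‖ ≤ 1 := by
      rw [cx, Complex.norm_real, Real.norm_of_nonneg (k.mem n t).1]; exact (k.mem n t).2
    rw [e, wb_cmul (cd_df (cx_cd (h.sm n)).contDiffAt) (cd_df (cx_cd (k.sm n)).contDiffAt)]
    refine le_trans ?_ (add_le_add (h2 t ht) (k2 t ht))
    rw [← add_mul]
    refine mul_le_mul_of_nonneg_right ((norm_add_le _ _).trans (add_le_add ?_ ?_)) (norm_nonneg _)
    · rw [norm_mul]; exact mul_le_of_le_one_right (norm_nonneg _) a2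
    · rw [norm_mul]; exact mul_le_of_le_one_left (norm_nonneg _) a1

theorem Cut.prod {ι : Type} (s : Finset ι) {χ : ι → ℕ → ℂ → ℝ} (h : ∀ i ∈ s, Cut Z g (χ i)) :
    Cut Z g fun n t => ∏ i ∈ s, χ i n t := by
  classical
  induction s using Finset.induction_on with
  | empty => simpa using cut_one
  | insert a s ha ih =>
    simp only [Finset.prod_insert ha]
    exact (h a (by simp)).mul (ih fun i hi => h i (by simp [hi]))

/-- the bump function -/
def bb : ContDiffBump (0 : ℂ) := ⟨1, 2, one_pos, one_lt_two⟩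

theorem bb_one {w : ℂ} (h : ‖w‖ ≤ 1) : bb w = 1 :=
  bb.one_of_mem_closedBall (mem_closedBall_zero_iff.2 h)

theorem bb_zero {w : ℂ} (h : 2 ≤ ‖w‖) : bb w = 0 := bb.zero_of_le_dist (by simpa [bb] using h)

theorem wbb_in {w : ℂ} (h : ‖w‖ < 1) : wb 1 (cx bb) w = 0 :=
  wb_lc (c := 1) ((continuous_norm.continuousAt.eventually (gt_mem_nhds h)).mono fun x hx => by
    rw [cx, bb_one hx.le, Complex.ofReal_one])

theorem wbb_out {w : ℂ} (h : 2 < ‖w‖) : wb 1 (cx bb) w = 0 :=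
  wb_lc (c := 0) ((continuous_norm.continuousAt.eventually (lt_mem_nhds h)).mono fun x hx => by
    rw [cx, bb_zero hx.le, Complex.ofReal_zero])

theorem wbb_bd : ∃ C, 0 ≤ C ∧ ∀ w : ℂ, ‖w‖ * ‖wb 1 (cx bb) w‖ ≤ C := by
  obtain ⟨C, hC⟩ := (isCompact_closedBall (0 : ℂ) 2).exists_bound_of_continuousOn
    (wb_cd (cx_cd bb.contDiff)).continuous.continuousOn
  have C0 : 0 ≤ C := (norm_nonneg _).trans (hC 0 (by simp))
  refine ⟨2 * C, by positivity, fun w => ?_⟩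
  rcases le_or_gt ‖w‖ 2 with h | h
  · exact mul_le_mul h (hC w (mem_closedBall_zero_iff.2 h)) (norm_nonneg _) zero_le_two
  · rw [wbb_out h, norm_zero, mul_zero]; positivity

/-- the rescaled bump function -/
def sb (l : ℝ) (s w : ℂ) : ℝ := bb (l * (w - s))

theorem sb_cd (l : ℝ) (s : ℂ) : ContDiff ℝ ∞ (sb l s) :=
  bb.contDiff.comp (contDiff_const.mul (contDiff_id.sub contDiff_const))

theorem norm_sc {l : ℝ} (h : 0 < l) (w : ℂ) : ‖(l : ℂ) * w‖ = l * ‖w‖ := by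
  rw [norm_mul, Complex.norm_real, Real.norm_of_nonneg h.le]

theorem wb_sb {l : ℝ} (h : 0 < l) (s t : ℂ) :
    ‖wb 1 (cx (sb l s)) t‖ = l * ‖wb 1 (cx bb) (l * (t - s))‖ := by
  have d : HasDerivAt (fun w : ℂ => (l : ℂ) * (w - s)) l t := by
    simpa using ((hasDerivAt_id t).sub_const s).const_mul (l : ℂ)
  have := P275GC.db_comp (f := cx bb) (g := fun w : ℂ => (l : ℂ) * (w - s)) (z := t)
    (cd_df (cx_cd bb.contDiff).contDiffAt) d.differentiableAt
  rw [d.deriv] at this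
  rw [show wb 1 (cx (sb l s)) t = _ from this, smul_eq_mul, Complex.conj_ofReal, norm_sc h]

theorem wb_sb_le {C l : ℝ} (hC : ∀ w : ℂ, ‖w‖ * ‖wb 1 (cx bb) w‖ ≤ C) (h : 0 < l) {s t : ℂ}
    (ht : t ≠ s) : ‖wb 1 (cx (sb l s)) t‖ ≤ C * ‖t - s‖ ^ (-1 : ℝ) := by
  have h0 : 0 < ‖t - s‖ := norm_pos_iff.2 (sub_ne_zero.2 ht)
  have := hC (l * (t - s))
  rw [norm_sc h] at this
  rw [wb_sb h, Real.rpow_neg_one, ← div_eq_mul_inv, le_div_iff₀ h0]
  linarith

theorem nat_pos (n : ℕ) : (0 : ℝ) < n + 1 := by positivity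

theorem nat_big (R : ℝ) : ∀ᶠ n : ℕ in atTop, R < n + 1 :=
  (tendsto_atTop_add_const_right _ 1 tendsto_natCast_atTop_atTop).eventually_gt_atTop R

theorem cut_inf {κ B : ℝ} (hκ : 0 < κ) (h : ∀ᶠ t in cobounded ℂ, ‖g t‖ ≤ B * ‖t‖ ^ (-1 - κ)) :
    Cut Z g fun n => sb (n + 1)⁻¹ 0 := by
  obtain ⟨C, C0, hC⟩ := wbb_bd
  obtain ⟨R, -, hR⟩ := (hasBasis_cobounded_norm (E := ℂ)).eventually_iff.1 h
  refine ⟨fun n => sb_cd _ _, fun n t => ⟨bb.nonneg, bb.le_one⟩, fun t _ => ?_,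
    fun t => C * |B| * 2 ^ (2 + κ) * (1 + ‖t‖) ^ (-(2 + κ)),
    (integrable_one_add_norm (by simp [hκ])).const_mul _, ?_⟩
  · refine ((nat_big (‖t‖ + 1)).prod_mk (continuous_norm.continuousAt.eventually
      (gt_mem_nhds (lt_add_one ‖t‖)))).mono fun q hq => bb_one ?_
    rw [norm_sc (inv_pos.2 (nat_pos _)), sub_zero, inv_mul_le_iff₀ (nat_pos _)]
    linarith [hq.1, hq.2]
  · filter_upwards [nat_big R] with n hn t _
    rcases lt_or_ge ‖t‖ (n + 1) with h1 | h1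
    · rw [wb_sb (inv_pos.2 (nat_pos _)), wbb_in, norm_zero, mul_zero, zero_mul]
      · positivity
      · rwa [norm_sc (inv_pos.2 (nat_pos _)), sub_zero, inv_mul_lt_iff₀ (nat_pos _), mul_one]
    · have h2 : 1 ≤ ‖t‖ := le_trans (by linarith [n.cast_nonneg (α := ℝ)]) h1
      have h0 : 0 < ‖t‖ := by linarith
      have h3 := wb_sb_le hC (inv_pos.2 (nat_pos n)) (s := 0) (norm_pos_iff.1 h0)
      have h4 : ‖g t‖ ≤ |B| * ‖t‖ ^ (-1 - κ) := (hR (hn.le.trans h1)).trans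
        (mul_le_mul_of_nonneg_right (le_abs_self B) (by positivity))
      have h5 : ‖t‖ ^ (-(2 + κ)) ≤ ((1 + ‖t‖) / 2) ^ (-(2 + κ)) :=
        Real.rpow_le_rpow_of_nonpos (by positivity) (by linarith) (by linarith)
      rw [Real.div_rpow (by positivity) zero_le_two, Real.rpow_neg zero_le_two, div_inv_eq_mul]
        at h5
      rw [sub_zero] at h3
      calc _ ≤ C * ‖t‖ ^ (-1 : ℝ) * (|B| * ‖t‖ ^ (-1 - κ)) :=
            mul_le_mul h3 h4 (norm_nonneg _) (by positivity)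
        _ = C * |B| * ‖t‖ ^ (-(2 + κ)) := by
            rw [show -(2 + κ) = -1 + (-1 - κ) by ring, Real.rpow_add h0]; ring
        _ ≤ C * |B| * ((1 + ‖t‖) ^ (-(2 + κ)) * 2 ^ (2 + κ)) :=
            mul_le_mul_of_nonneg_left h5 (by positivity)
        _ = _ := by ring

theorem cut_pt {κ B : ℝ} {s : ℂ} (hs : s ∈ Z) (hκ : 0 < κ)
    (h : ∀ᶠ t in 𝓝[≠] s, ‖g t‖ ≤ B * ‖t - s‖ ^ (κ - 1)) :
    Cut Z g fun n t => 1 - sb (n + 1) s t := by
  obtain ⟨C, C0, hC⟩ := wbb_bd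
  obtain ⟨r, r0, hr⟩ := Metric.eventually_nhds_iff.1 (eventually_nhdsWithin_iff.1 h)
  have hi : IntegrableOn (fun x : ℂ => ‖x‖ ^ (-(2 - κ))) (ball 0 r) :=
    integrableOn_ball_of_norm_le_rpow (C := 1) (α := 2 - κ) (by simp) (by simp [hκ])
      (Eventually.of_forall fun x => by
        rw [one_mul, Real.norm_of_nonneg (by positivity)])
      (Measurable.aestronglyMeasurable (by fun_prop))
  refine ⟨fun n => contDiff_const.sub (sb_cd _ _), fun n t =>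
    ⟨sub_nonneg.2 bb.le_one, sub_le_self _ bb.nonneg⟩, fun t ht => ?_,
    fun t => C * |B| * (ball (0 : ℂ) r).indicator (fun x => ‖x‖ ^ (-(2 - κ))) (t - s),
    (((integrable_indicator_iff measurableSet_ball).2 hi).comp_sub_right s).const_mul _, ?_⟩
  · have h0 : 0 < ‖t - s‖ := norm_pos_iff.2 (sub_ne_zero.2 fun e => ht (e ▸ hs))
    have c : ContinuousAt (fun w : ℂ => ‖w - s‖) t := by fun_prop
    refine ((nat_big (4 / ‖t - s‖)).prod_mk (c.eventually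
      (lt_mem_nhds (half_lt_self h0)))).mono fun q hq => ?_
    have h1 := (div_lt_iff₀ h0).1 hq.1
    rw [sb, bb_zero, sub_zero]
    rw [norm_sc (nat_pos _)]
    nlinarith [hq.2, nat_pos q.1]
  · filter_upwards [nat_big (2 / r)] with n hn t ht
    have hts : t ≠ s := fun e => ht (e ▸ hs)
    have h0 : 0 < ‖t - s‖ := norm_pos_iff.2 (sub_ne_zero.2 hts)
    have e : wb 1 (cx fun t => 1 - sb (n + 1) s t) t = -wb 1 (cx (sb (n + 1) s)) t := by
      have := wb_sub (f := fun _ => (1 : ℂ)) (differentiableAt_const _)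
        (cd_df (cx_cd (sb_cd (n + 1) s)).contDiffAt) (z := t) 1
      rw [wb_const, zero_sub] at this
      rw [← this]
      exact congrArg (fun f => wb 1 f t) (funext fun w => by simp [cx])
    rw [e, norm_neg]
    rcases lt_or_ge ‖t - s‖ r with h1 | h1
    · have h4 : ‖g t‖ ≤ |B| * ‖t - s‖ ^ (κ - 1) := (hr (by rwa [dist_eq_norm]) hts).trans
        (mul_le_mul_of_nonneg_right (le_abs_self B) (by positivity))
      rw [indicator_of_mem (mem_ball_zero_iff.2 h1)]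
      calc _ ≤ C * ‖t - s‖ ^ (-1 : ℝ) * (|B| * ‖t - s‖ ^ (κ - 1)) :=
            mul_le_mul (wb_sb_le hC (nat_pos n) hts) h4 (norm_nonneg _) (by positivity)
        _ = _ := by rw [show -(2 - κ) = -1 + (κ - 1) by ring, Real.rpow_add h0]; ring
    · rw [wb_sb (nat_pos _), wbb_out, norm_zero, mul_zero, zero_mul,
        indicator_of_notMem (by simpa using h1), mul_zero]
      rw [norm_sc (nat_pos _)]
      have := (div_lt_iff₀ r0).1 hn
      nlinarith [nat_pos n]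

/-- `f` vanishes off a compact set which does not meet `Z` -/
def Off (Z : Finset ℂ) (f : ℂ → ℂ) : Prop :=
  ∃ K : Set ℂ, IsCompact K ∧ (∀ t ∈ K, t ∉ Z) ∧ ∀ t ∉ K, f t = 0

theorem exists_cut {κ B : ℝ} (hκ : 0 < κ)
    (h : ∀ s ∈ Z, ∀ᶠ t in 𝓝[≠] s, ‖g t‖ ≤ B * ‖t - s‖ ^ (κ - 1))
    (h' : ∀ᶠ t in cobounded ℂ, ‖g t‖ ≤ B * ‖t‖ ^ (-1 - κ)) :
    ∃ χ, Cut Z g χ ∧ ∀ n, Off Z (cx (χ n)) := by
  refine ⟨_, (cut_inf hκ h').mul (Cut.prod Z fun s hs => cut_pt hs hκ (h s hs)), fun n =>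
    ⟨closedBall 0 (2 * (n + 1)) \ ⋃ s ∈ Z, ball s (n + 1)⁻¹,
      (isCompact_closedBall _ _).diff (isOpen_biUnion fun _ _ => isOpen_ball), fun t ht hz =>
        ht.2 (mem_biUnion hz (mem_ball_self (inv_pos.2 (nat_pos n)))), fun t ht => ?_⟩⟩
  rw [cx, Complex.ofReal_eq_zero, mul_eq_zero]
  by_cases h1 : t ∈ closedBall (0 : ℂ) (2 * (n + 1))
  · obtain ⟨s, hs, h2⟩ := mem_iUnion₂.1 (not_not.1 fun h => ht ⟨h1, h⟩)
    refine Or.inr (Finset.prod_eq_zero hs ?_)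
    rw [sb, bb_one, sub_self]
    rw [norm_sc (nat_pos _), ← le_inv_mul_iff₀ (nat_pos _), mul_one]
    exact (mem_ball_iff_norm.1 h2).le
  · refine Or.inl (bb_zero ?_)
    rw [norm_sc (inv_pos.2 (nat_pos _)), sub_zero, le_inv_mul_iff₀ (nat_pos _)]
    linarith [not_le.1 (mt mem_closedBall_zero_iff.2 h1)]

theorem Off.wb {f : ℂ → ℂ} (h : Off Z f) : Off Z (wb 1 f) :=
  let ⟨K, h1, h2, h3⟩ := h
  ⟨K, h1, h2, fun _ ht => wb_lc (eventually_of_mem (h1.isClosed.isOpen_compl.mem_nhds ht) h3)⟩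

theorem Off.mul {f : ℂ → ℂ} (h : Off Z f) (hf : ContDiff ℝ ∞ f)
    (hg : ∀ t ∉ Z, ContDiffAt ℝ ∞ g t) :
    ContDiff ℝ ∞ (fun t => f t * g t) ∧ HasCompactSupport fun t => f t * g t := by
  obtain ⟨K, h1, h2, h3⟩ := h
  refine ⟨contDiff_iff_contDiffAt.2 fun t => ?_,
    HasCompactSupport.intro h1 fun t ht => by rw [h3 t ht, zero_mul]⟩
  by_cases ht : t ∈ K
  · exact hf.contDiffAt.mul (hg t (h2 t ht))
  · exact (contDiffAt_const (c := 0)).congr_of_eventuallyEq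
      (eventually_of_mem (h1.isClosed.isOpen_compl.mem_nhds ht) fun s hs => by
        simp only [h3 s hs, zero_mul])

theorem Cut.on (h : Cut Z g χ) {K : Set ℂ} (hK : IsCompact K) (hZ : ∀ t ∈ K, t ∉ Z) :
    ∀ᶠ n in atTop, ∀ t ∈ K, χ n t = 1 := by
  refine hK.induction_on (p := fun A => ∀ᶠ n in atTop, ∀ t ∈ A, χ n t = 1) (by simp)
    (fun _ _ hs h => h.mono fun n hn t ht => hn t (hs ht))
    (fun _ _ h1 h2 => (h1.and h2).mono fun n hn t ht => ht.elim (hn.1 t) (hn.2 t)) fun t ht => ?_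
  obtain ⟨p, hp, q, hq, H⟩ := eventually_prod_iff.1 (h.one t (hZ t ht))
  exact ⟨{w | q w}, mem_nhdsWithin_of_mem_nhds hq, hp.mono fun n hn w hw => H hn hw⟩

/-- no residues, in the plane -/
theorem Cut.tend (h : Cut Z g χ) (ho : ∀ n, Off Z (cx (χ n))) (hg : ∀ t ∉ Z, ContDiffAt ℝ ∞ g t) :
    Tendsto (fun n => ∫ t, cx (χ n) t * wb 1 g t) atTop (𝓝 0) := by
  have i1 : ∀ n, Integrable fun t => wb 1 (cx (χ n)) t * g t := fun n =>
    let ⟨a, b⟩ := (ho n).wb.mul (wb_cd (cx_cd (h.sm n))) hg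
    a.continuous.integrable_of_hasCompactSupport b
  have i2 : ∀ n, Integrable fun t => cx (χ n) t * wb 1 g t := fun n =>
    let ⟨a, b⟩ := (ho n).mul (cx_cd (h.sm n)) fun t ht => cd_wb (hg t ht)
    a.continuous.integrable_of_hasCompactSupport b
  have e : ∀ n, ∫ t, cx (χ n) t * wb 1 g t = -∫ t, wb 1 (cx (χ n)) t * g t := fun n => by
    obtain ⟨a, b⟩ := (ho n).mul (cx_cd (h.sm n)) hg
    rw [eq_neg_iff_add_eq_zero, add_comm, ← integral_add (i1 n) (i2 n),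
      ← (P275GC.int_db (a.of_le (by simp)) b).2]
    refine integral_congr_ae ((ae_notMem Z).mono fun t ht => ?_)
    exact (wb_cmul (cd_df (cx_cd (h.sm n)).contDiffAt) (cd_df (hg t ht)) 1).symm
  obtain ⟨F, hF, h1⟩ := h.dom
  have := tendsto_integral_filter_of_dominated_convergence (f := fun _ => (0 : ℂ)) F
    (Eventually.of_forall fun n => (i1 n).aestronglyMeasurable)
    (h1.mono fun n hn => (ae_notMem Z).mono fun t ht => by rw [norm_mul]; exact hn t ht) hF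
    ((ae_notMem Z).mono fun t ht => tendsto_const_nhds.congr' (by
      obtain ⟨p, hp, q, hq, H⟩ := eventually_prod_iff.1 (h.one t ht)
      refine hp.mono fun n hn => ?_
      have : wb 1 (cx (χ n)) t = 0 := wb_lc (c := 1) (hq.mono fun w hw => by
        rw [cx, H hn hw, Complex.ofReal_one])
      simp only [this, zero_mul]))
  simpa only [e, integral_zero, neg_zero] using this.neg

end Vale.Agent.P275RB
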